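import Vale.Agent.P061.Alpha
import Vale.Agent.P061.Pieces

/-!
Strong thinness for graphs of bounded independence number and for graphs split into boundedly
many dense parts.
-/

namespace Vale.Agent.Results.P061.BoundedIndependenceThinTree

open Finset Vale.Agent.P061

/-- Multigraphs split into at most `N` parts, each of internal density at least `c`. -/
theorem of_parts (c : ℝ) (hc : 0 < c) (N : ℕ) :
    ∃ C : ℝ, 0 < C ∧
      ∀ (V : Type) [Fintype V] [DecidableEq V] (m : V → V → ℕ) (μ k : ℕ) (f : V → Fin N),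
        2 ≤ Fintype.card V → (∀ u v, m u v = m v u) → (∀ v, m v v = 0) →
        (∀ u v, m u v ≤ μ) → 1 ≤ k →
        (∀ v, c * (μ : ℝ) * (((univ.filter (fun u => f u = f v)).card : ℝ) - 1) ≤
          ((∑ u ∈ univ.filter (fun u => f u = f v), m v u : ℕ) : ℝ)) →
        (∀ S : Finset V, S.Nonempty → S ≠ Finset.univ → k ≤ ∑ u ∈ S, ∑ v ∈ Sᶜ, m u v) →
        ∃ T : SimpleGraph V, T.IsTree ∧ (∀ u v, T.Adj u v → 0 < m u v) ∧
          ∀ S : Finset V,
            (Set.ncard {e : V × V | e.1 ∈ S ∧ e.2 ∉ S ∧ T.Adj e.1 e.2} : ℝ) ≤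
              C / (k : ℝ) * ((∑ u ∈ S, ∑ v ∈ Sᶜ, m u v : ℕ) : ℝ) := by
  obtain ⟨C, hC, hw⟩ := exists_thin_of_parts c hc N
  refine ⟨C, hC, ?_⟩
  intro V _ _ m μ k f hn2 hsym hloop hμ hk hdens hcut
  haveI : Nonempty V := Fintype.card_pos_iff.mp (by omega)
  have hμ0 : (0 : ℝ) < (μ : ℝ) := by
    obtain ⟨v⟩ := ‹Nonempty V›
    have hvne : ({v} : Finset V) ≠ univ := by
      intro h
      have := congrArg Finset.card h
      simp at this
      omega
    have h1 := hcut {v} (singleton_nonempty v) hvne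
    rw [sum_singleton] at h1
    have h2 : μ ≠ 0 := by
      intro h
      subst h
      rw [sum_eq_zero (fun u _ => Nat.le_zero.mp (hμ v u))] at h1
      omega
    exact_mod_cast Nat.pos_of_ne_zero h2
  have hk0 : (0 : ℝ) < (k : ℝ) := by exact_mod_cast hk
  have hwsum : ∀ A B : Finset V, wsum (fun u v => (m u v : ℝ) / (μ : ℝ)) A B =
      ((∑ u ∈ A, ∑ v ∈ B, m u v : ℕ) : ℝ) / (μ : ℝ) := by
    intro A B
    simp [wsum, Finset.sum_div]
  obtain ⟨T, hT, hpos, hthin⟩ := hw V hn2 (fun u v => (m u v : ℝ) / (μ : ℝ))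
    (fun u v => by simp only [hsym u v]) (fun w => by simp [hloop w])
    (fun u w => by positivity)
    (fun u w => by rw [div_le_one hμ0]; exact_mod_cast hμ u w)
    ((k : ℝ) / (μ : ℝ)) (by positivity)
    (fun S h1 h2 => by
      rw [hwsum]
      gcongr
      exact_mod_cast hcut S h1 h2)
    f (fun v => by
      rw [← Finset.sum_div, le_div_iff₀ hμ0]
      have := hdens v
      push_cast at this
      change c * (((univ.filter (fun u => f u = f v)).card : ℝ) - 1) * (μ : ℝ) ≤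
        ∑ u ∈ univ.filter (fun u => f u = f v), (m v u : ℝ)
      linarith)
  refine ⟨T, hT, fun u w h => ?_, fun S => ?_⟩
  · have := hpos u w h
    rcases Nat.eq_zero_or_pos (m u w) with h' | h'
    · simp [h'] at this
    · exact h'
  · have h := hthin S
    rw [hwsum] at h
    change (crossCard T S : ℝ) ≤ C / (k : ℝ) * _
    rw [mul_div_assoc', mul_div_assoc', div_le_div_iff_of_pos_right hμ0] at h
    rw [div_mul_eq_mul_div, le_div_iff₀ hk0]
    exact h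

theorem result :
    (∀ (a r : ℕ), ∃ C : ℝ, 0 < C ∧
      ∀ (V : Type) [Fintype V] [DecidableEq V] (m : V → V → ℕ) (μ k : ℕ),
        2 ≤ Fintype.card V → (∀ u v, m u v = m v u) → (∀ v, m v v = 0) →
        (∀ u v, m u v ≤ μ) → (∀ u v, 0 < m u v → μ ≤ r * m u v) →
        (∀ I : Finset V, (∀ u ∈ I, ∀ v ∈ I, m u v = 0) → I.card ≤ a) → 1 ≤ k →
        (∀ S : Finset V, S.Nonempty → S ≠ Finset.univ → k ≤ ∑ u ∈ S, ∑ v ∈ Sᶜ, m u v) →
        ∃ T : SimpleGraph V, T.IsTree ∧ (∀ u v, T.Adj u v → 0 < m u v) ∧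
          ∀ S : Finset V,
            (Set.ncard {e : V × V | e.1 ∈ S ∧ e.2 ∉ S ∧ T.Adj e.1 e.2} : ℝ) ≤
              C / (k : ℝ) * ((∑ u ∈ S, ∑ v ∈ Sᶜ, m u v : ℕ) : ℝ)) ∧
    (∀ (c : ℝ) (N : ℕ), 0 < c → ∃ C : ℝ, 0 < C ∧
      ∀ (V : Type) [Fintype V] [DecidableEq V] (m : V → V → ℕ) (μ k : ℕ) (f : V → Fin N),
        2 ≤ Fintype.card V → (∀ u v, m u v = m v u) → (∀ v, m v v = 0) →
        (∀ u v, m u v ≤ μ) → 1 ≤ k →
        (∀ v, c * (μ : ℝ) * (((univ.filter (fun u => f u = f v)).card : ℝ) - 1) ≤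
          ((∑ u ∈ univ.filter (fun u => f u = f v), m v u : ℕ) : ℝ)) →
        (∀ S : Finset V, S.Nonempty → S ≠ Finset.univ → k ≤ ∑ u ∈ S, ∑ v ∈ Sᶜ, m u v) →
        ∃ T : SimpleGraph V, T.IsTree ∧ (∀ u v, T.Adj u v → 0 < m u v) ∧
          ∀ S : Finset V,
            (Set.ncard {e : V × V | e.1 ∈ S ∧ e.2 ∉ S ∧ T.Adj e.1 e.2} : ℝ) ≤
              C / (k : ℝ) * ((∑ u ∈ S, ∑ v ∈ Sᶜ, m u v : ℕ) : ℝ)) := by
  refine ⟨fun a r => ?_, fun c N hc => of_parts c hc N⟩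
  obtain ⟨N, c, -, hc, -, hparts⟩ := exists_dense_parts a
  obtain ⟨C, hC, hw⟩ := of_parts (c / ((r : ℝ) + 1)) (by positivity) N
  refine ⟨C, hC, ?_⟩
  intro V _ _ m μ k hn2 hsym hloop hμ hr hind hk hcut
  classical
  let G : SimpleGraph V :=
    { Adj := fun u v => 0 < m u v
      symm := ⟨fun u v (h : 0 < m u v) => show 0 < m v u from hsym v u ▸ h⟩
      loopless := ⟨fun v (h : 0 < m v v) => h.ne' (hloop v)⟩ }
  obtain ⟨f, hf⟩ := hparts V G univ (fun I _ hI => hind I fun u hu v hv =>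
    Nat.eq_zero_of_not_pos (hI u hu v hv))
  refine hw V m μ k f hn2 hsym hloop hμ hk (fun v => ?_) hcut
  set P : Finset V := univ.filter (fun u => f u = f v) with hP
  set Q : Finset V := P.filter (fun u => G.Adj v u) with hQ
  have h1 : c * ((P.card : ℝ) - 1) ≤ (Q.card : ℝ) := by
    convert hf v (mem_univ v)
  have h2 : μ * Q.card ≤ r * ∑ u ∈ P, m v u := by
    calc μ * Q.card = ∑ u ∈ Q, μ := by simp [mul_comm]
      _ ≤ ∑ u ∈ Q, r * m v u := sum_le_sum fun u hu => hr v u (mem_filter.mp hu).2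
      _ = r * ∑ u ∈ Q, m v u := (mul_sum _ _ _).symm
      _ ≤ r * ∑ u ∈ P, m v u :=
        Nat.mul_le_mul_left r (sum_le_sum_of_subset (filter_subset _ _))
  have h2' : (μ : ℝ) * (Q.card : ℝ) ≤ (r : ℝ) * ((∑ u ∈ P, m v u : ℕ) : ℝ) := by
    exact_mod_cast h2
  have h3 := mul_le_mul_of_nonneg_left h1 (Nat.cast_nonneg μ : (0 : ℝ) ≤ (μ : ℝ))
  have h4 : (0 : ℝ) ≤ ((∑ u ∈ P, m v u : ℕ) : ℝ) := Nat.cast_nonneg _
  rw [div_mul_eq_mul_div, div_mul_eq_mul_div, div_le_iff₀ (by positivity)]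
  linarith

end Vale.Agent.Results.P061.BoundedIndependenceThinTree
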