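import Vale.Agent.P061.PathWidth

/-!
P061: the strong thin tree conjecture for multigraphs of bounded path-width.
-/

open Vale.Agent.P061 in
theorem Vale.Agent.Results.P061.PathWidthThinTree.result :
    ∀ w : ℕ, ∃ C : ℝ, 0 < C ∧
      ∀ (V : Type) [Fintype V] [DecidableEq V] (m : V → V → ℕ) (k : ℕ),
        2 ≤ Fintype.card V → (∀ u v, m u v = m v u) → (∀ v, m v v = 0) → 1 ≤ k →
        PathWidthLE m w →
        (∀ S : Finset V, S.Nonempty → S ≠ Finset.univ → k ≤ ∑ u ∈ S, ∑ v ∈ Sᶜ, m u v) →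
        ∃ T : SimpleGraph V, T.IsTree ∧ (∀ u v, T.Adj u v → 0 < m u v) ∧
          ∀ S : Finset V,
            (Set.ncard {e : V × V | e.1 ∈ S ∧ e.2 ∉ S ∧ T.Adj e.1 e.2} : ℝ) ≤
              C / (k : ℝ) * ((∑ u ∈ S, ∑ v ∈ Sᶜ, m u v : ℕ) : ℝ) :=
  Vale.Agent.P061.exists_thin_of_pathWidth
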